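import Crest.Agent.X212.Op78.Slc

/-!
# Row 212, SW-DL (helper23): parallel three-forms, slice integrals
-/

set_option autoImplicit false
set_option linter.unusedSectionVars false
noncomputable section
open scoped Manifold ContDiff Topology InnerProductSpace
open Finset Filter MeasureTheory

namespace Crest.Agent.X212.Dl23
open An Sob92 Wz78 Cyf70

section ten
variable {E H : Type*} [NormedAddCommGroup E] [NormedSpace ℝ E] [TopologicalSpace H]
  {I : ModelWithCorners ℝ E H} {M : Type*} [TopologicalSpace M] [ChartedSpace H M]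
  {ι : Type} [Fintype ι] [IsManifold I 1 M]
  {e : ι → (x : M) → TangentSpace I x} {P : ι → ι → M → ℝ} {c Γ : ι → ι → ι → M → ℝ}
  {g : ι → M → ℝ} {G : ι → ι → ι → M → ℝ} {x : M}

variable (I e P Γ G x) in
/-- a parallel three-form -/
structure P3 : Prop where
  sm : ∀ a b c, SA I (G a b c) x
  a1 : ∀ a b c, G a b c x = -G b a c x
  a2 : ∀ a b c, G a b c x = -G a c b x
  po : ∀ a b c, ∑ k, P a k x * G k b c x = G a b c x
  par : ∀ a b c d, dv I (e a) (G b c d) x =
    ∑ k, (Γ a b k x * G k c d x + Γ a c k x * G b k d x + Γ a d k x * G b c k x)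

variable (L : LC I e P c Γ) (F : Frm I e P c) (hg : ∀ k, g k x = ∑ a, Γ a k a x)
  (h : P3 I e P Γ G x)
include L F hg h

theorem div3 {S : ι → ι → M → ℝ} (hS : ∀ i j, SA I (S i j) x)
    (p1 : ∀ i j, ∑ n, P i n x • S n j x = S i j x) (p2 : ∀ i j, ∑ n, P j n x • S i n x = S i j x) :
    dvg I e g (fun k y => ∑ i, ∑ j, G k i j y * S i j y) x = ∑ k, ∑ i, ∑ j, G k i j x *
      (dv I (e k) (S i j) x - ∑ n, Γ k i n x * S n j x - ∑ n, Γ k j n x * S i n x) := by
  have sk : ∀ k (T : ι → ι → ℝ), (∀ b k, ∑ l, P b l x • T l k = T b k) →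
      (∀ b k, ∑ m, P k m x • T b m = T b k) →
      ∑ i, ∑ n, Γ k i n x * T i n = -∑ n, ∑ i, Γ k n i x * T i n := fun k T h1 h2 => by
    have := F.dP_zero k x h1 h2
    simp only [L.met, smul_eq_mul, add_mul, sum_add_distrib] at this
    rw [sum_comm (f := fun n i => Γ k n i x * T i n)]
    linarith
  have q2 : ∀ a b c, ∑ k, P b k x * G a k c x = G a b c x := fun a b c => by
    simp only [h.a1 a, mul_neg, sum_neg_distrib, h.po]
  have q3 : ∀ a b c, ∑ k, P c k x * G a b k x = G a b c x := fun a b c => by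
    simp only [h.a2 a b, mul_neg, sum_neg_distrib, q2]
  simp only [smul_eq_mul] at p1 p2
  have h1 := L.div_sum F hg (T := fun k => ∑ i, ∑ j, G k i j x * S i j x) fun k => by
    simp only [← h.po k, smul_eq_mul, mul_sum, sum_mul, mul_assoc]
    rw [sum_comm]
    exact sum_congr rfl fun _ _ => sum_comm
  have e1 : ∀ k, dv I (e k) (fun y => ∑ i, ∑ j, G k i j y * S i j y) x =
      ∑ i, ∑ j, (dv I (e k) (G k i j) x * S i j x + G k i j x * dv I (e k) (S i j) x) := fun k =>
    (dv_sum' _ fun i => SA.sum _ fun j _ => (h.sm k i j).mul (hS i j)).trans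
      (sum_congr rfl fun i _ => (dv_sum' _ fun j => (h.sm k i j).mul (hS i j)).trans
        (sum_congr rfl fun j _ => dv_mul (h.sm k i j) (hS i j)))
  have a : ∑ k, ∑ i, ∑ j, (∑ n, Γ k k n x * G n i j x) * S i j x =
      -∑ k, g k x * ∑ i, ∑ j, G k i j x * S i j x := by
    refine Eq.trans (sum_congr rfl fun k _ => ?_) h1
    simp only [smul_eq_mul, mul_sum, sum_mul, mul_assoc]
    symm
    rw [sum_comm]
    exact sum_congr rfl fun _ _ => sum_comm
  have b : ∀ k, ∑ i, ∑ j, (∑ n, Γ k i n x * G k n j x) * S i j x =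
      -∑ i, ∑ j, G k i j x * ∑ n, Γ k i n x * S n j x := fun k => by
    have := sk k (fun i n => ∑ j, G k n j x * S i j x) (fun b n => by
      simp only [← p1 b, smul_eq_mul, mul_sum, mul_left_comm (G _ _ _ x)]; exact sum_comm)
      fun b n => by simp only [← q2 k n, smul_eq_mul, mul_sum, sum_mul, mul_assoc]; exact sum_comm
    simp only [mul_sum, sum_mul, mul_assoc, mul_left_comm (G _ _ _ x)] at this ⊢
    rw [sum_congr rfl fun _ _ => sum_comm, this]
    exact congrArg _ (sum_congr rfl fun _ _ => sum_comm)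
  have d : ∀ k, ∑ i, ∑ j, (∑ n, Γ k j n x * G k i n x) * S i j x =
      -∑ i, ∑ j, G k i j x * ∑ n, Γ k j n x * S i n x := fun k => by
    rw [← sum_neg_distrib]
    refine sum_congr rfl fun i _ => ?_
    have := sk k (fun j n => G k i n x * S i j x) (fun b n => by
      simp only [← p2 i b, smul_eq_mul, mul_sum, mul_left_comm (G _ _ _ x)])
      fun b n => by simp only [← q3 k i n, smul_eq_mul, sum_mul, mul_assoc]
    simpa only [mul_sum, sum_mul, mul_assoc, mul_left_comm (G _ _ _ x)] using this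
  simp only [dvg, e1, h.par, sum_add_distrib, add_mul, a, b, d, mul_sub, sum_sub_distrib,
    sum_neg_distrib]
  ring

omit L F hg in
theorem P3.swap (X : ι → ι → ι → ℝ) :
    ∑ k, ∑ i, ∑ j, G k i j x * X k i j = -∑ k, ∑ i, ∑ j, G k i j x * X i k j ∧
    ∑ k, ∑ i, ∑ j, G k i j x * X k i j = -∑ k, ∑ i, ∑ j, G k i j x * X k j i := by
  simp only [← sum_neg_distrib]
  refine ⟨sum_comm.trans ?_, sum_congr rfl fun k _ => sum_comm.trans ?_⟩
  · exact sum_congr rfl fun k _ => sum_congr rfl fun i _ => sum_congr rfl fun j _ => by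
      rw [h.a1 i k, neg_mul]
  · exact sum_congr rfl fun i _ => sum_congr rfl fun j _ => by rw [h.a2 k j i, neg_mul]

/-- `* d` is symmetric -/
theorem green {u a : ι → M → ℝ} (hu : ∀ i, SA I (u i) x) (ha : ∀ i, SA I (a i) x)
    (pu : ∀ i, ∑ n, P i n x • u n x = u i x) (pa : ∀ i, ∑ n, P i n x • a n x = a i x) :
    ∑ k, (∑ i, ∑ j, G k i j x * d1 I e c u i j x) * a k x -
      ∑ k, (∑ i, ∑ j, G k i j x * d1 I e c a i j x) * u k x =
      2 * dvg I e g (fun k y => ∑ i, ∑ j, G k i j y * (u i y * a j y)) x := by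
  rw [div3 L F hg h (fun i j => (hu i).mul (ha j))
    (fun i j => by simp only [← pu i, smul_eq_mul, sum_mul, mul_assoc])
    fun i j => by simp only [← pa j, smul_eq_mul, mul_sum, mul_left_comm]]
  have k : ∀ {u a : ι → M → ℝ}, (∀ i, ∑ n, P i n x • u n x = u i x) →
      ∑ k, (∑ i, ∑ j, G k i j x * d1 I e c u i j x) * a k x = 2 * ∑ k, ∑ i, ∑ j, G k i j x *
        ((dv I (e k) (u i) x - ∑ n, Γ k i n x * u n x) * a j x) := fun {u a} pu => by
    set X : ι → ι → ℝ := fun k i => dv I (e k) (u i) x - ∑ n, Γ k i n x * u n x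
    have e : ∀ i j, d1 I e c u i j x = X i j - X j i := fun i j => by
      rw [d1, L.cD _ _ pu]; simp only [X, smul_eq_mul]; ring
    have s1 := (h.swap fun k i j => X k i * a j x).2
    have s2 := (h.swap fun k i j => X k j * a i x).1
    have s3 := (h.swap fun k i j => X i j * a k x).2
    change _ = 2 * ∑ k, ∑ i, ∑ j, G k i j x * (X k i * a j x)
    simp only [e, mul_sub, sub_mul, sum_sub_distrib, sum_mul, mul_assoc]
    linarith
  rw [k pu, k pa, (h.swap fun k i j => (dv I (e k) (a i) x - ∑ n, Γ k i n x * a n x) * u j x).2,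
    ← mul_sub, sub_neg_eq_add]
  simp only [← sum_add_distrib, fun k i j => dv_mul (e := e k) (hu i) (ha j)]
  exact congrArg _ (sum_congr rfl fun _ _ => sum_congr rfl fun i _ => sum_congr rfl fun j _ => by
    simp only [mul_left_comm _ (u i x), ← mul_assoc _ _ (a j x), ← mul_sum, ← sum_mul]; ring)

/-- the dual of a closed form is divergence free -/
theorem div_closed {f : ι → ι → M → ℝ} (hf : ∀ i j, SA I (f i j) x)
    (an : ∀ i j, f i j x = -f j i x) (p1 : ∀ i j, ∑ n, P i n x • f n j x = f i j x)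
    (cl : ∀ a b m, (dv I (e a) (f b m) x - ∑ k, c b m k x • f k a x)
      + (dv I (e b) (f m a) x - ∑ k, c m a k x • f k b x)
      + (dv I (e m) (f a b) x - ∑ k, c a b k x • f k m x) = 0) :
    dvg I e g (fun k y => ∑ i, ∑ j, G k i j y * f i j y) x = 0 := by
  rw [div3 L F hg h hf p1 fun i j => by simp only [an i, smul_neg, sum_neg_distrib, p1]]
  have cy : ∀ X : ι → ι → ι → ℝ, ∑ k, ∑ i, ∑ j, G k i j x * X i j k =
      ∑ k, ∑ i, ∑ j, G k i j x * X k i j := fun X => by rw [(h.swap _).1, (h.swap _).2, neg_neg]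
  set X : ι → ι → ι → ℝ := fun k i j =>
    dv I (e k) (f i j) x - ∑ n, Γ k i n x * f n j x - ∑ n, Γ k j n x * f i n x
  have : ∑ k, ∑ i, ∑ j, G k i j x * (X k i j + X i j k + X j k i) = 0 :=
    sum_eq_zero fun k _ => sum_eq_zero fun i _ => sum_eq_zero fun j _ => by
      have := cl k i j
      have n : ∀ a b m, ∑ n, Γ a b n x * f m n x = -∑ n, Γ a b n x * f n m x := fun a b m => by
        simp only [an m, mul_neg, sum_neg_distrib]
      rw [L.cD i j (p1 · k), L.cD j k (p1 · i), L.cD k i (p1 · j)] at this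
      simp only [smul_eq_mul] at this
      rw [show X k i j + X i j k + X j k i = 0 by
        simp only [X]; linarith [n k j i, n i k j, n j i k], mul_zero]
  simp only [mul_add, sum_add_distrib, cy X, cy fun i j k => X j k i] at this
  linarith

end ten

section sl
variable {E : Type} [NormedAddCommGroup E] [NormedSpace ℝ E] [FiniteDimensional ℝ E]
  [MeasurableSpace E] [BorelSpace E]
  {HM : Type} [TopologicalSpace HM] {I : ModelWithCorners ℝ E HM} [I.Boundaryless]
  {Y : Type} [TopologicalSpace Y] [ChartedSpace HM Y] [IsManifold I ∞ Y] [T2Space Y]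
  [MeasurableSpace Y] [BorelSpace Y] [CompactSpace Y] {ι : Type} [Fintype ι]
  (F : Pre I Y ι) {f : Y × ℝ → ℝ}

theorem hasDerivAt_int (hf : Sm (IC I) f) (s : ℝ) :
    HasDerivAt (fun s => ∫ y, f (y, s) ∂F.μ) (∫ y, (cylP F).D none f (y, s) ∂F.μ) s := by
  have h1 := ((cylP F).sm_D hf none).continuous
  obtain ⟨C, hC⟩ := (isCompact_univ.prod (isCompact_closedBall s 1)).exists_bound_of_continuousOn
    h1.continuousOn
  have i : ∀ {g : Y → ℝ}, Continuous g → Integrable g F.μ := fun h =>
    h.integrable_of_hasCompactSupport (HasCompactSupport.of_compactSpace _)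
  exact (hasDerivAt_integral_of_dominated_loc_of_deriv_le (F := fun s y => f (y, s))
    (F' := fun s y => (cylP F).D none f (y, s)) (Metric.closedBall_mem_nhds s one_pos)
    (.of_forall fun t => (i (sm_slice_fst hf t).continuous).1) (i (sm_slice_fst hf s).continuous)
    (i (h1.comp (by fun_prop))).1 (.of_forall fun y t ht => hC (y, t) ⟨trivial, ht⟩)
    (i continuous_const) (.of_forall fun y t _ => hasDerivAt_slice F hf y t)).2

theorem contDiff_int (hf : Sm (IC I) f) : ContDiff ℝ ∞ fun s => ∫ y, f (y, s) ∂F.μ := by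
  refine contDiff_infty.2 fun n => ?_
  induction n generalizing f with
  | zero => exact contDiff_zero.2 (continuous_iff_continuousAt.2 fun s =>
      (hasDerivAt_int F hf s).continuousAt)
  | succ n ih =>
    refine (contDiff_succ_iff_deriv (n := n)).2
      ⟨fun s => (hasDerivAt_int F hf s).differentiableAt, by simp, ?_⟩
    rw [_root_.funext fun s => (hasDerivAt_int F hf s).deriv]
    exact ih ((cylP F).sm_D hf none)

theorem hasDerivAt_int' (hf : Sm (IC I) f) {s : ℝ} {g : Y → ℝ}
    (h : ∀ y, HasDerivAt (fun s => f (y, s)) (g y) s) :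
    HasDerivAt (fun s => ∫ y, f (y, s) ∂F.μ) (∫ y, g y ∂F.μ) s := by
  simpa only [fun y => (h y).unique (hasDerivAt_slice F hf y s)] using hasDerivAt_int F hf s

end sl

end Crest.Agent.X212.Dl23
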